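import Mathlib
import Vale.Agent.P043.H100.FinA

/-! # P043: the finite gadget, tables -/

namespace Vale.Agent.P043.H100

def codeN (k l : ℕ) : ℕ :=
  17446515529182143266714201316139936673727425857378987 / 32 ^ (7 * k + l) % 32
def kb0 (a b f : ℕ) : ℕ :=
  48421413391384861662986143460208148480 / 8 ^ (7 * (3 * a + b) + f) % 8
def lb0 (a b f s : ℕ) : ℕ :=
  3818948937596261706677968935992341186153508881213939275948321261217602695685984612692597368519527691406994086214068624817264715070350642038769061239049290285975930707223994843639470494842880 / 8 ^ (5 * (7 * (3 * a + b) + f) + s) % 8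
def rk0 (a b f s : ℕ) : ℕ :=
  2455153769648611238761117812315525905332309383644355275850765717953981500187456955839328182228881511530993890886976812167643382908498365892070302649026842529340980520540629701027680028196864 / 8 ^ (5 * (7 * (3 * a + b) + f) + s) % 8
def lb1 (a b f : ℕ) : ℕ :=
  25539517170050874234504 / 8 ^ (5 * (3 * a + b) + f) % 8
def kb1 (a b f s : ℕ) : ℕ :=
  47011612884860564168655377571813272604674961196424143646721520962450319415181162205663146102587698237400407999533821580961105303894391801041668540039816619081 / 8 ^ (7 * (5 * (3 * a + b) + f) + s) % 8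
def rk1 (a b f s : ℕ) : ℕ :=
  29262981183833052751986254386920565475289928409190055537539077695945447553140613110885532257834496853271581183693846001898459084251146121023574429671990562952 / 8 ^ (7 * (5 * (3 * a + b) + f) + s) % 8

/-- class of a cell: `true` is class 0 -/
def cl0 (a b : ℕ) : Bool := !((a == 0 && b == 0) || (a == 1 && b == 1))

/-- the covered set of class 0 (type true) -/
def xl (c j : ℕ) : Bool :=
  if c < 20 then true else if c = 20 then false else if c = 21 then decide (j ≤ 2)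
    else decide (1 ≤ j ∧ j ≤ 3)

def b1 (a : ℕ) : ℕ := if a = 0 then 1 else 0

def D0b (c f i j : ℕ) : Bool :=
  if c < 20 then
    (i % 2 == c / 10) && (j % 3 == (if 2 * f + i / 2 < c % 10 then b1 (c / 10) else 2))
  else if c = 20 then false
  else if c = 21 then (i % 2 == 1) && (j == 0)
  else (i % 2 == 0) && (j == 1)

def rho0 (c f i _j : ℕ) : ℕ :=
  if c < 20 then
    (if 2 * f + i / 2 < c % 10 then 2 * f + i / 2 else 2 * f + i / 2 - c % 10)
  else i / 2

def K0 (a b c : ℕ) : ℕ :=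
  if c < 20 then
    (if c / 10 = a then (if b = b1 a then c % 10 else if b = 2 then 6 - c % 10 else 0) else 0)
  else if c = 21 then (if a = 1 ∧ b = 0 then 2 else 0)
  else if c = 22 then (if a = 0 ∧ b = 1 then 2 else 0)
  else 0

def D1b (c f i j : ℕ) : Bool :=
  if c < 20 then false
  else if c = 20 then ((i % 2 == 0) && (j % 3 == 0) && (f == 0)) ||
    ((i % 2 == 1) && (j % 3 == 1) && (f == 1))
  else if c = 21 then (i % 2 == 0) && (j == 3 || j == 6)
  else (i % 2 == 1) && (j == 4 || j == 7)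

def rho1 (c _f i j : ℕ) : ℕ :=
  if c = 20 then j / 3 else i / 2 + 2 * (j / 3 - 1)

def K1 (a b c : ℕ) : ℕ :=
  if c < 20 then 0
  else if c = 20 then (if (a = 0 ∧ b = 0) ∨ (a = 1 ∧ b = 1) then 3 else 0)
  else if c = 21 then (if a = 0 ∧ b = 0 then 4 else 0)
  else (if a = 1 ∧ b = 1 then 4 else 0)

/-- the kinds -/
def kinds : List ℕ := [0, 1, 2, 3, 4, 5, 6, 10, 11, 12, 13, 14, 15, 16, 20, 21, 22]

lemma code_mem : ∀ l : LL, codeN l.1 l.2 ∈ kinds := by decide +kernel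

lemma u25 : ∀ (x : ZMod 25) (y : Fin 5), ∃ q : Fin 5,
    (x - ((q : ℕ) : ZMod 25)).val % 5 = y ∧
      ∀ q' : Fin 5, (x - ((q' : ℕ) : ZMod 25)).val % 5 = y → q' = q := by decide +kernel
lemma u49 : ∀ (x : ZMod 49) (y : Fin 7), ∃ q : Fin 7,
    (x - ((q : ℕ) : ZMod 49)).val % 7 = y ∧
      ∀ q' : Fin 7, (x - ((q' : ℕ) : ZMod 49)).val % 7 = y → q' = q := by decide +kernel
lemma w49 : ∀ (h : ZMod 49) (f y : Fin 7), ∃ l : ZMod 49, l.val % 7 = y ∧ (h - l).val / 7 = f := by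
  decide +kernel
lemma w25 : ∀ (h : ZMod 25) (f y : Fin 5), ∃ l : ZMod 25, l.val % 5 = y ∧ (h - l).val / 5 = f := by
  decide +kernel
lemma wi25 : ∀ (h l l' : ZMod 25), l.val % 5 = l'.val % 5 → (h - l).val / 5 = (h - l').val / 5 →
    l = l' := by
  decide +kernel
lemma wi49 : ∀ (h l l' : ZMod 49), l.val % 7 = l'.val % 7 → (h - l).val / 7 = (h - l').val / 7 →
    l = l' := by
  decide +kernel
lemma z25 : ∀ (k' s : Fin 5), ∃ k : ZMod 25, k.val % 5 = k' ∧ k.val / 5 = s := by decide +kernel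
lemma z49 : ∀ (k' s : Fin 7), ∃ k : ZMod 49, k.val % 7 = k' ∧ k.val / 7 = s := by decide +kernel

lemma cD0a : ∀ c ∈ kinds, ∀ (h : ZMod 9) (i : ZMod 4) (j : ZMod 9), xl c j.val = true →
    ∃ p : CC, D0b c ((h - j).val / 3) (i - ((p.1 : ℕ) : ZMod 4)).val
        (j - ((p.2 : ℕ) : ZMod 9)).val = true ∧
      ∀ q : CC, D0b c ((h - j).val / 3) (i - ((q.1 : ℕ) : ZMod 4)).val
        (j - ((q.2 : ℕ) : ZMod 9)).val = true → q = p := by
  decide +kernel
lemma cD0b : ∀ c ∈ kinds, ∀ (h : ZMod 9) (i : ZMod 4) (j : ZMod 9), ¬ xl c j.val = true →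
    ∀ p : CC, ¬ D0b c ((h - j).val / 3) (i - ((p.1 : ℕ) : ZMod 4)).val
        (j - ((p.2 : ℕ) : ZMod 9)).val = true := by
  decide +kernel
lemma cD0r : ∀ c ∈ kinds, ∀ (h : ZMod 9) (i : ZMod 4) (j : ZMod 9),
    D0b c ((h - j).val / 3) i.val j.val = true →
      rho0 c ((h - j).val / 3) i.val j.val < K0 (i.val % 2) (j.val % 3) c := by
  decide +kernel
lemma cD0m : ∀ c ∈ kinds, ∀ (h : ZMod 9) (a : Fin 2) (b : Fin 3) (n : Fin 8),
    (n : ℕ) < K0 a b c →
    ∃ g : G1, (g.1.val % 2 = a ∧ g.2.val % 3 = b ∧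
        D0b c ((h - g.2).val / 3) g.1.val g.2.val = true ∧
        rho0 c ((h - g.2).val / 3) g.1.val g.2.val = n) ∧
      ∀ g' : G1, (g'.1.val % 2 = a ∧ g'.2.val % 3 = b ∧
        D0b c ((h - g'.2).val / 3) g'.1.val g'.2.val = true ∧
        rho0 c ((h - g'.2).val / 3) g'.1.val g'.2.val = n) → g' = g := by
  decide +kernel
lemma cK0 : ∀ c ∈ kinds, ∀ (a : Fin 2) (b : Fin 3), K0 a b c < 8 := by decide +kernel

lemma cD1a : ∀ c ∈ kinds, ∀ (h : ZMod 4) (i : ZMod 4) (j : ZMod 9), ¬ xl c j.val = true →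
    ∃ p : CC, D1b c ((h - i).val / 2) (i - ((p.1 : ℕ) : ZMod 4)).val
        (j - ((p.2 : ℕ) : ZMod 9)).val = true ∧
      ∀ q : CC, D1b c ((h - i).val / 2) (i - ((q.1 : ℕ) : ZMod 4)).val
        (j - ((q.2 : ℕ) : ZMod 9)).val = true → q = p := by
  decide +kernel
lemma cD1b : ∀ c ∈ kinds, ∀ (h : ZMod 4) (i : ZMod 4) (j : ZMod 9), xl c j.val = true →
    ∀ p : CC, ¬ D1b c ((h - i).val / 2) (i - ((p.1 : ℕ) : ZMod 4)).val
        (j - ((p.2 : ℕ) : ZMod 9)).val = true := by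
  decide +kernel
lemma cD1r : ∀ c ∈ kinds, ∀ (h : ZMod 4) (i : ZMod 4) (j : ZMod 9),
    D1b c ((h - i).val / 2) i.val j.val = true →
      rho1 c ((h - i).val / 2) i.val j.val < K1 (i.val % 2) (j.val % 3) c := by
  decide +kernel
lemma cD1m : ∀ c ∈ kinds, ∀ (h : ZMod 4) (a : Fin 2) (b : Fin 3) (n : Fin 8),
    (n : ℕ) < K1 a b c →
    ∃ g : G1, (g.1.val % 2 = a ∧ g.2.val % 3 = b ∧
        D1b c ((h - g.1).val / 2) g.1.val g.2.val = true ∧
        rho1 c ((h - g.1).val / 2) g.1.val g.2.val = n) ∧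
      ∀ g' : G1, (g'.1.val % 2 = a ∧ g'.2.val % 3 = b ∧
        D1b c ((h - g'.1).val / 2) g'.1.val g'.2.val = true ∧
        rho1 c ((h - g'.1).val / 2) g'.1.val g'.2.val = n) → g' = g := by
  decide +kernel
lemma cK1 : ∀ c ∈ kinds, ∀ (a : Fin 2) (b : Fin 3), K1 a b c < 8 := by decide +kernel

-- class 0 items
lemma kb0_lt : ∀ (a : Fin 2) (b : Fin 3) (f : Fin 7), kb0 a b f < 5 := by decide +kernel
lemma lb0_lt : ∀ (a : Fin 2) (b : Fin 3) (f : Fin 7) (s : Fin 5), lb0 a b f s < 7 := by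
  decide +kernel
lemma lb1_lt : ∀ (a : Fin 2) (b : Fin 3) (f : Fin 5), lb1 a b f < 7 := by decide +kernel
lemma kb1_lt : ∀ (a : Fin 2) (b : Fin 3) (f : Fin 5) (s : Fin 7), kb1 a b f s < 5 := by
  decide +kernel
lemma rk0_lt : ∀ (a : Fin 2) (b : Fin 3), cl0 a b = true → ∀ (f : Fin 7) (s : Fin 5),
    rk0 a b f s < K0 a b (codeN (kb0 a b f) (lb0 a b f s)) := by
  decide +kernel
lemma rk1_lt : ∀ (a : Fin 2) (b : Fin 3), ¬ cl0 a b = true → ∀ (f : Fin 5) (s : Fin 7),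
    rk1 a b f s < K1 a b (codeN (kb1 a b f s) (lb1 a b f)) := by
  decide +kernel
lemma cM0 : ∀ (a : Fin 2) (b : Fin 3) (k : Fin 5) (l : Fin 7) (n : Fin 8),
    (n : ℕ) < K0 a b (codeN k l) → cl0 a b = true ∧
    ∃ (f : Fin 7) (s : Fin 5), (kb0 a b f = k ∧ lb0 a b f s = l ∧ rk0 a b f s = n) ∧
      ∀ (f' : Fin 7) (s' : Fin 5), (kb0 a b f' = k ∧ lb0 a b f' s' = l ∧ rk0 a b f' s' = n) →
        f' = f ∧ s' = s := by
  decide +kernel
lemma cM1 : ∀ (a : Fin 2) (b : Fin 3) (k : Fin 5) (l : Fin 7) (n : Fin 8),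
    (n : ℕ) < K1 a b (codeN k l) → ¬ cl0 a b = true ∧
    ∃ (f : Fin 5) (s : Fin 7), (lb1 a b f = l ∧ kb1 a b f s = k ∧ rk1 a b f s = n) ∧
      ∀ (f' : Fin 5) (s' : Fin 7), (lb1 a b f' = l ∧ kb1 a b f' s' = k ∧ rk1 a b f' s' = n) →
        f' = f ∧ s' = s := by
  decide +kernel

end Vale.Agent.P043.H100
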